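import Vale.Agent.P327.Homeo.Compute

/-! Category lemmas for a Borel map on Cantor space, and functionals on boxes. -/

namespace Vale.Agent.P327.Borel

open Nat.Partrec Filter Homeo Topology

/-- A point near which `F` is continuous relative to the generic set `C`. -/
def ContOn (F : (ℕ → Bool) → ℕ → Bool) (C : Set (ℕ → Bool)) : Prop :=
  ∀ x ∈ C, ∀ L, ∃ M, ∀ y ∈ C, (∀ i < M, y i = x i) → pre (F y) L = pre (F x) L

theorem exists_contOn {F : (ℕ → Bool) → ℕ → Bool} (hF : Measurable F) :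
    ∃ C ∈ residual (ℕ → Bool), ContOn F C := by
  have hS : ∀ n, MeasurableSet {x | F x n = true} := fun n =>
    ((measurable_pi_apply n).comp hF) (measurableSet_singleton true)
  choose U hUo hU using fun n => (hS n).residualEq_isOpen
  let C : Set (ℕ → Bool) :=
    {x | ∀ n, ((F x n = true) ↔ x ∈ U n) ∧ (x ∈ U n ∨ x ∈ (closure (U n))ᶜ)}
  refine ⟨C, eventually_countable_forall.2 fun n => ?_, ?_⟩
  · have h1 : ∀ᶠ x in residual (ℕ → Bool), (F x n = true) ↔ x ∈ U n :=
      (eventuallyEq_set.1 (hU n)).mono fun x hx => hx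
    have h2 : ∀ᶠ x in residual (ℕ → Bool), x ∈ U n ∨ x ∈ (closure (U n))ᶜ := by
      refine residual_of_dense_open ((hUo n).union isClosed_closure.isOpen_compl) ?_
      rw [dense_iff_inter_open]
      intro W hW ⟨z, hz⟩
      by_cases hzU : z ∈ closure (U n)
      · obtain ⟨z', h1, h2⟩ := mem_closure_iff.1 hzU W hW hz
        exact ⟨z', h1, Or.inl h2⟩
      · exact ⟨z, hz, Or.inr hzU⟩
    exact h1.and h2
  · intro x hx L
    have hn : ∀ n, ∃ M, ∀ y ∈ C, (∀ i < M, y i = x i) → F y n = F x n := by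
      intro n
      rcases (hx n).2 with h | h
      · obtain ⟨M, hM⟩ := exists_cyl (hUo n) h
        exact ⟨M, fun y hy hyx => by rw [(hy n).1.2 (hM (mem_cyl_pre.2 hyx)), (hx n).1.2 h]⟩
      · obtain ⟨M, hM⟩ := exists_cyl isClosed_closure.isOpen_compl h
        refine ⟨M, fun y hy hyx => ?_⟩
        have hfy : F y n ≠ true := fun e => hM (mem_cyl_pre.2 hyx) (subset_closure ((hy n).1.1 e))
        have hfx : F x n ≠ true := fun e => h (subset_closure ((hx n).1.1 e))
        rw [Bool.eq_false_iff.2 hfy, Bool.eq_false_iff.2 hfx]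
    choose M hM using hn
    refine ⟨(Finset.range L).sup M, fun y hy hyx => pre_eq_of fun i hi => hM i y hy fun j hj =>
      hyx j (hj.trans_le (Finset.le_sup (f := M) (Finset.mem_range.2 hi)))⟩

/-- If countably many sets cover the generic points of an open set, one is dense in an open piece. -/
theorem exists_dense_piece {X : Type*} [TopologicalSpace X] [BaireSpace X] {ι : Type*} [Countable ι]
    {U R : Set X} (hU : IsOpen U) (hne : U.Nonempty) (hR : R ∈ residual X) (A : ι → Set X)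
    (hcov : ∀ x ∈ R, x ∈ U → ∃ i, x ∈ A i) :
    ∃ i, ∃ O ⊆ U, IsOpen O ∧ O.Nonempty ∧ O ⊆ closure (A i ∩ R) := by
  obtain ⟨S, hSo, hSd, hSc, hSR⟩ := mem_residual_iff.1 hR
  haveI := hSc.to_subtype
  let K : Option (ι ⊕ S) → Set X := fun o => o.elim Uᶜ
    fun e => e.elim (fun i => closure (A i ∩ R)) fun s => (s.1)ᶜ
  have hKc : ∀ o, IsClosed (K o) := by
    rintro (_ | i | s)
    exacts [hU.isClosed_compl, isClosed_closure, (hSo s.1 s.2).isClosed_compl]
  have hK : ⋃ o, K o = Set.univ := by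
    refine Set.eq_univ_of_forall fun x => Set.mem_iUnion.2 ?_
    by_cases hxU : x ∈ U
    · by_cases hxS : x ∈ ⋂₀ S
      · obtain ⟨i, hi⟩ := hcov x (hSR hxS) hxU
        exact ⟨some (Sum.inl i), subset_closure ⟨hi, hSR hxS⟩⟩
      · simp only [Set.mem_sInter, not_forall] at hxS
        obtain ⟨s, hs, hxs⟩ := hxS
        exact ⟨some (Sum.inr ⟨s, hs⟩), hxs⟩
    · exact ⟨none, hxU⟩
  obtain ⟨x₀, hx₀U, hx₀⟩ := (dense_iUnion_interior_of_closed hKc hK).inter_open_nonempty U hU hne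
  obtain ⟨o, ho⟩ := Set.mem_iUnion.1 hx₀
  obtain _ | i | s := o
  · exact absurd hx₀U (interior_subset ho)
  · exact ⟨i, interior (closure (A i ∩ R)) ∩ U, Set.inter_subset_right, isOpen_interior.inter hU,
      ⟨x₀, ho, hx₀U⟩, Set.inter_subset_left.trans interior_subset⟩
  · exfalso
    obtain ⟨z, hz, hzs⟩ := (hSd s.1 s.2).inter_open_nonempty _ isOpen_interior ⟨x₀, ho⟩
    exact interior_subset (s := K (some (Sum.inr s))) hz hzs

/-- The code `c` computes `y` from `a` and `b`. -/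
def Rep (c : Code) (a b y : ℕ → Bool) : Prop :=
  Mono c ∧ ∀ n v, (v ∈ orc y n ↔
    ∃ L, v ∈ c.eval (Encodable.encode ((pre (jn a b) L, n) : List Bool × ℕ)))

theorem take_pre' (x : ℕ → Bool) (M j : ℕ) : (pre x M).take j = pre x (min j M) := take_pre x M j

theorem Rep.app_pref {c : Code} {a b y : ℕ → Bool} (hc : Rep c a b y) {p q : List Bool}
    (hp : Pref p a) (hq : Pref q b) (K : ℕ) : Pref (app c ((p, q), K)) y := by
  refine List.ext_getElem (by simp [pre]) fun i hi hi' => ?_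
  simp only [app, List.length_map] at hi'
  simp only [app, pre, List.getElem_map, List.getElem_range]
  have hsome := List.mem_takeWhile_imp (List.getElem_mem hi')
  obtain ⟨v, hv⟩ := Option.isSome_iff_exists.1 hsome
  rw [hv]
  have := (List.takeWhile_prefix (p := fun o : Option ℕ => o.isSome)
    (l := (List.range K).map fun n => ev1 c (((p, q), K), n))).getElem hi'
  rw [hv] at this
  simp only [List.getElem_map, List.getElem_range] at this
  obtain ⟨j, -, hj⟩ := List.mem_map.1 (mem_of_firstSome this.symm)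
  simp only [il_eq hp hq, take_pre] at hj
  have hval := (hc.2 i v).2 ⟨_, Code.evaln_sound hj⟩
  simp only [orc, Part.mem_some_iff] at hval
  cases hT : y i <;> simp [hval, hT]

theorem Rep.app_long {c : Code} {a b y : ℕ → Bool} (hc : Rep c a b y) (L : ℕ) :
    ∃ M, ∀ p q K, Pref p a → Pref q b → M ≤ p.length → M ≤ q.length → M ≤ K →
      L ≤ (app c ((p, q), K)).length := by
  have h : ∀ n, ∃ M, ∀ p q K, Pref p a → Pref q b → M ≤ p.length → M ≤ q.length → M ≤ K →
      (ev1 c (((p, q), K), n)).isSome := by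
    intro n
    obtain ⟨L₀, hv⟩ := (hc.2 n _).1 (Part.mem_some (if y n then 1 else 0))
    obtain ⟨k, hk⟩ := Code.evaln_complete.1 hv
    refine ⟨max L₀ k, fun p q K hp hq hLp hLq hK => ?_⟩
    refine isSome_firstSome (v := if y n then 1 else 0) (List.mem_map.2 ⟨L₀, List.mem_range.2 (by dsimp only; omega), ?_⟩)
    simp only [il_eq hp hq, take_pre]
    rw [min_eq_left (by omega)]
    exact Code.evaln_mono (by omega) hk
  choose M hM using h
  refine ⟨max L ((Finset.range L).sup M), fun p q K hp hq hLp hLq hK => ?_⟩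
  simp only [app, List.length_map]
  refine takeWhile_range_length (by omega) fun n hn => ?_
  have := Finset.le_sup (f := M) (Finset.mem_range.2 hn)
  exact hM n p q K hp hq (by omega) (by omega) (by omega)

theorem residual_preimage {X Y : Type*} [TopologicalSpace X] [TopologicalSpace Y] {f : X → Y}
    (hc : Continuous f) (ho : IsOpenMap f) {p : Y → Prop} (h : ∀ᶠ y in residual Y, p y) :
    ∀ᶠ x in residual X, p (f x) :=
  tendsto_residual_of_isOpenMap hc ho h

/-- One code computing `F (f z)` from `F z.1` and `F z.2` at the generic points of an open piece. -/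
theorem exists_rep {F : (ℕ → Bool) → ℕ → Bool} {C : Set (ℕ → Bool)}
    (hCr : C ∈ residual (ℕ → Bool)) (hC : ContOn F C)
    (f : (ℕ → Bool) × (ℕ → Bool) → ℕ → Bool) (hf : Continuous f) (hfo : IsOpenMap f)
    (hred : ∀ z, TuringReducible (orc (F (f z))) (orc (jn (F z.1) (F z.2))))
    (U : Set ((ℕ → Bool) × (ℕ → Bool))) (hU : IsOpen U) (hne : U.Nonempty) :
    ∃ c : Code, ∃ O ⊆ U, IsOpen O ∧ O.Nonempty ∧
      ∀ᶠ z in residual ((ℕ → Bool) × (ℕ → Bool)), z ∈ O → Rep c (F z.1) (F z.2) (F (f z)) := by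
  set R : Set ((ℕ → Bool) × (ℕ → Bool)) := {z | z.1 ∈ C ∧ z.2 ∈ C ∧ f z ∈ C}
  have hR : R ∈ residual _ :=
    (residual_preimage (p := (· ∈ C)) continuous_fst isOpenMap_fst hCr).and
      ((residual_preimage (p := (· ∈ C)) continuous_snd isOpenMap_snd hCr).and
        (residual_preimage (p := (· ∈ C)) hf hfo hCr))
  obtain ⟨c, O, hOU, hO, hOne, hOA⟩ := exists_dense_piece hU hne hR
    (fun c : Code => {z : (ℕ → Bool) × (ℕ → Bool) | Rep c (F z.1) (F z.2) (F (f z))})
    fun z _ _ => use_code (hred z)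
  -- neighbourhoods on which finitely many values are constant
  have hnb : ∀ z ∈ R, ∀ L n, ∃ N, IsOpen N ∧ z ∈ N ∧ ∀ z' ∈ R, z' ∈ N →
      pre (jn (F z'.1) (F z'.2)) L = pre (jn (F z.1) (F z.2)) L ∧ F (f z') n = F (f z) n := by
    intro z hz L n
    obtain ⟨M₁, hM₁⟩ := hC z.1 hz.1 L
    obtain ⟨M₂, hM₂⟩ := hC z.2 hz.2.1 L
    obtain ⟨M₃, hM₃⟩ := hC (f z) hz.2.2 (n + 1)
    refine ⟨(cyl (pre z.1 M₁) ×ˢ cyl (pre z.2 M₂)) ∩ f ⁻¹' cyl (pre (f z) M₃),
      ((isOpen_cyl _).prod (isOpen_cyl _)).inter ((isOpen_cyl _).preimage hf),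
      ⟨⟨mem_cyl_pre.2 fun _ _ => rfl, mem_cyl_pre.2 fun _ _ => rfl⟩, mem_cyl_pre.2 fun _ _ => rfl⟩,
      ?_⟩
    rintro z' hz' ⟨⟨h1, h2⟩, h3⟩
    have e1 := hM₁ z'.1 hz'.1 (mem_cyl_pre.1 h1)
    have e2 := hM₂ z'.2 hz'.2.1 (mem_cyl_pre.1 h2)
    have e3 := hM₃ (f z') hz'.2.2 (mem_cyl_pre.1 h3)
    refine ⟨pre_eq_of fun i hi => ?_, ?_⟩
    · simp only [jn]
      split_ifs
      · rw [← pre_getI (x := F z'.1) (show i / 2 < L by omega), e1, pre_getI (by omega)]
      · rw [← pre_getI (x := F z'.2) (show i / 2 < L by omega), e2, pre_getI (by omega)]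
    · rw [← pre_getI (x := F (f z')) (show n < n + 1 by omega), e3, pre_getI (by omega)]
  obtain ⟨z₀, hz₀⟩ := hOne
  have hmono : Mono c := by
    obtain ⟨z, hz⟩ : ({z : (ℕ → Bool) × (ℕ → Bool) | Rep c (F z.1) (F z.2) (F (f z))} ∩ R).Nonempty :=
      closure_nonempty_iff.1 ⟨z₀, hOA hz₀⟩
    exact hz.1.1
  -- where the code converges
  let G : ℕ → Set ((ℕ → Bool) × (ℕ → Bool)) := fun n => {z | ∃ L v N, IsOpen N ∧ z ∈ N ∧
    ∀ z' ∈ R, z' ∈ N →
      v ∈ c.eval (Encodable.encode ((pre (jn (F z'.1) (F z'.2)) L, n) : List Bool × ℕ))}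
  have hG : ∀ n, ∀ᶠ z in residual _, z ∈ O → z ∈ G n := by
    intro n
    have hGo : IsOpen (G n) := isOpen_iff_forall_mem_open.2 fun z ⟨L, v, N, hN, hzN, h⟩ =>
      ⟨N, fun z' hz' => ⟨L, v, N, hN, hz', h⟩, hN, hzN⟩
    have hd : Dense (G n ∪ (closure O)ᶜ) := by
      rw [dense_iff_inter_open]
      intro W hW ⟨z, hz⟩
      by_cases hzO : z ∈ closure O
      · obtain ⟨z₁, hz₁W, hz₁O⟩ := mem_closure_iff.1 hzO W hW hz
        obtain ⟨z₂, hz₂W, hz₂A, hz₂R⟩ := mem_closure_iff.1 (hOA hz₁O) W hW hz₁W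
        obtain ⟨L, hL⟩ := (hz₂A.2 n _).1 (Part.mem_some _)
        obtain ⟨N, hN, hzN, hN'⟩ := hnb z₂ hz₂R L n
        exact ⟨z₂, hz₂W, Or.inl ⟨L, _, N, hN, hzN, fun z' h1 h2 => by
          rw [(hN' z' h1 h2).1]; exact hL⟩⟩
      · exact ⟨z, hz, Or.inr hzO⟩
    exact (eventually_of_mem (residual_of_dense_open (hGo.union isClosed_closure.isOpen_compl) hd)
      fun z hz => hz).mono fun z hz hzO => hz.resolve_right fun h => h (subset_closure hzO)
  refine ⟨c, O, hOU, hO, ⟨z₀, hz₀⟩, ?_⟩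
  filter_upwards [hR, eventually_countable_forall.2 hG] with z hzR hzG hzO
  refine ⟨hmono, fun n v => ?_⟩
  have sound : ∀ L v, v ∈ c.eval (Encodable.encode ((pre (jn (F z.1) (F z.2)) L, n) : List Bool × ℕ)) →
      v ∈ orc (F (f z)) n := by
    intro L v hv
    obtain ⟨N, hN, hzN, hN'⟩ := hnb z hzR L n
    obtain ⟨z', hz'N, hz'A, hz'R⟩ := mem_closure_iff.1 (hOA hzO) N hN hzN
    have h' := (hz'A.2 n v).2 ⟨L, by rw [(hN' z' hz'R hz'N).1]; exact hv⟩
    simp only [orc, Part.mem_some_iff] at h' ⊢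
    rw [h', (hN' z' hz'R hz'N).2]
  constructor
  · intro hv
    obtain ⟨L, v', N, -, hzN, h⟩ := hzG n hzO
    exact ⟨L, Part.mem_unique (sound L v' (h z hzR hzN)) hv ▸ h z hzR hzN⟩
  · rintro ⟨L, hv⟩
    exact sound L v hv

end Vale.Agent.P327.Borel
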