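import Vale.Agent.P327.Borel.Parts
import Vale.Agent.P327.Homeo.Main

/-! Every point is recursive in its image under a category-continuous representation. -/

namespace Vale.Agent.P327.Borel

open Nat.Partrec Filter Homeo Topology

variable {F : (ℕ → Bool) → ℕ → Bool} {C : Set (ℕ → Bool)}

/-- The two steps of one gadget on strings. -/
def gstep (g : Code × Code) (p : ((List Bool × List Bool) × List Bool) × ℕ) : List Bool :=
  stepF g.1 g.2 p

theorem gstep_pref {g : Code × Code} {a b b' c d : ℕ → Bool} (h1 : Rep g.1 a b c) (h2 : Rep g.2 c b' d)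
    {q pb pb' : List Bool} (hq : Pref q a) (hb : Pref pb b) (hb' : Pref pb' b') (K : ℕ) :
    Pref (gstep g (((q, pb), pb'), K)) d :=
  h2.app_pref (h1.app_pref hq hb K) hb' K

theorem gstep_long {g : Code × Code} {a b b' c d : ℕ → Bool} (h1 : Rep g.1 a b c) (h2 : Rep g.2 c b' d)
    (L : ℕ) : ∃ M, ∀ q pb pb' K, Pref q a → Pref pb b → Pref pb' b' → M ≤ q.length → M ≤ pb.length →
      M ≤ pb'.length → M ≤ K → L ≤ (gstep g (((q, pb), pb'), K)).length := by
  obtain ⟨M₂, hM₂⟩ := h2.app_long L
  obtain ⟨M₁, hM₁⟩ := h1.app_long M₂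
  refine ⟨max M₁ M₂, fun q pb pb' K hq hb hb' hlq hlb hlb' hK => ?_⟩
  exact hM₂ _ _ K (h1.app_pref hq hb K) hb'
    (hM₁ _ _ K hq hb (le_trans (le_max_left _ _) hlq) (le_trans (le_max_left _ _) hlb)
      (le_trans (le_max_left _ _) hK)) (le_trans (le_max_right _ _) hlb')
    (le_trans (le_max_right _ _) hK)

/-- A point with bit pattern `j` on `[m, m + k)`. -/
def pat (m : ℕ) (d : List Bool) : ℕ → Bool := fun i =>
  decide (m ≤ i) && (decide (i < m + d.length) && d.getI (i - m))

theorem pat_low (m : ℕ) (d : List Bool) {i : ℕ} (hi : i < m) : pat m d i = false := by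
  simp [pat, show ¬ m ≤ i by omega]

theorem computable_pat (m : ℕ) (d : List Bool) : Computable (pat m d) :=
  ((Primrec.dom_bool₂ (fun a b => a && b)).comp
    (PrimrecPred.decide (Primrec.nat_le.comp (Primrec.const m) Primrec.id))
    ((Primrec.dom_bool₂ (fun a b => a && b)).comp
      (PrimrecPred.decide (Primrec.nat_lt.comp Primrec.id (Primrec.const (m + d.length))))
      (primrec_getI_bool.comp (Primrec.const d)
        (Primrec.nat_sub.comp Primrec.id (Primrec.const m))))).to_comp

theorem computable_tail (m : ℕ) : Computable (tail m) :=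
  (PrimrecPred.decide (Primrec.nat_le.comp (Primrec.const m) Primrec.id)).to_comp

/-- The first certified answer among the finitely many translations. -/
def decode (τ : List Bool) (b : Bool) (m : ℕ) (g : Code × Code) (P : List Bool) (Y : List Bool) :
    List (List Bool) → ℕ → Option Bool
  | [], _ => none
  | d :: ds, k =>
    if (gstep g (((Y, colL 5 P), colL k P), P.length)).take τ.length = τ then some (xor b (d.getI 0))
    else decode τ b m g P Y ds (k + 1)

theorem primrec_decode (τ : List Bool) (b : Bool) (m : ℕ) (g : Code × Code) (ds : List (List Bool))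
    (k : ℕ) : Primrec fun p : List Bool × List Bool => decode τ b m g p.1 p.2 ds k := by
  induction ds generalizing k with
  | nil => exact Primrec.const none
  | cons d ds ih =>
    refine Primrec.ite (Primrec.eq.comp (Primrec.list_take.comp (Primrec.const τ.length)
      ((primrec_stepF g.1 g.2).comp (((Primrec.snd.pair
        (primrec_colL.comp (Primrec.const 5) Primrec.fst)).pair
        (primrec_colL.comp (Primrec.const k) Primrec.fst)).pair
          (Primrec.list_length.comp Primrec.fst)))) (Primrec.const τ)) (Primrec.const _) (ih (k + 1))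

theorem decode_sound {τ : List Bool} {b : Bool} {m : ℕ} {g : Code × Code} {P Y : List Bool}
    {ds : List (List Bool)} {k : ℕ} {v : Bool} (h : decode τ b m g P Y ds k = some v) :
    ∃ i, ∃ d, ds[i]? = some d ∧ v = xor b (d.getI 0) ∧
      (gstep g (((Y, colL 5 P), colL (k + i) P), P.length)).take τ.length = τ := by
  induction ds generalizing k with
  | nil => simp [decode] at h
  | cons d ds ih =>
    by_cases hc : (gstep g (((Y, colL 5 P), colL k P), P.length)).take τ.length = τ
    · simp only [decode, hc, if_true, Option.some.injEq] at h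
      exact ⟨0, d, rfl, h.symm, hc⟩
    · simp only [decode, hc, if_false] at h
      obtain ⟨i, d', h1, h2, h3⟩ := ih h
      exact ⟨i + 1, d', by simpa using h1, h2, by rwa [show k + (i + 1) = k + 1 + i by omega]⟩

theorem decode_tot {τ : List Bool} {b : Bool} {m : ℕ} {g : Code × Code} {P Y : List Bool}
    {ds : List (List Bool)} {k i : ℕ} {d : List Bool} (hd : ds[i]? = some d)
    (h : (gstep g (((Y, colL 5 P), colL (k + i) P), P.length)).take τ.length = τ) :
    (decode τ b m g P Y ds k).isSome := by
  induction ds generalizing k i with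
  | nil => simp at hd
  | cons d' ds ih =>
    by_cases hc : (gstep g (((Y, colL 5 P), colL k P), P.length)).take τ.length = τ
    · simp [decode, hc]
    · cases i with
      | zero => exact absurd h hc
      | succ i =>
        simp only [decode, hc, if_false]
        exact ih (by simpa using hd) (by rwa [show k + 1 + i = k + (i + 1) by omega])

theorem core (hF : RepAuto F) (hCr : C ∈ residual (ℕ → Bool)) (hC : ContOn F C) :
    ∃ (wQ : List Bool) (U : Set (ℕ → Bool)), IsOpen U ∧ U.Nonempty ∧
      ∀ᶠ z in residual ((ℕ → Bool) × (ℕ → Bool)), z.1 ∈ cyl wQ → z.2 ∈ U →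
        TuringReducible (orc z.1) (orc (F (jn z.1 z.2))) := by
  obtain ⟨wA, wbA, a₁, a₂, -, hA⟩ := exists_gadget hF hCr hC (swapAct ra ra_invol computable_ra)
    isOpen_univ Set.univ_nonempty
  obtain ⟨wB, wbB, b₁, b₂, hBA, hB⟩ := exists_gadget hF hCr hC (swapAct rb rb_invol computable_rb)
    (isOpen_cyl wA) (cyl_nonempty wA)
  obtain ⟨wX, wbX, x₁, x₂, hXB, hX⟩ := exists_gadget hF hCr hC xorAct (isOpen_cyl wB) (cyl_nonempty wB)
  obtain ⟨w, b, r, τ, hwX, hwlen, hyes, hno⟩ := exists_read hF hCr hC wX
    (wbA.length + wbB.length + wbX.length)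
  set m := w.length with hm
  set pats : List (List Bool) :=
    (Finset.univ : Finset (Fin (r.length + 1) → Bool)).toList.map List.ofFn with hpats
  let selA : (ℕ → Bool) → ℕ → Bool := evn
  let selB : (ℕ → Bool) → ℕ → Bool := evn ∘ odd'
  let selX : (ℕ → Bool) → ℕ → Bool := odd' ∘ odd'
  have hselA : Continuous selA ∧ IsOpenMap selA := evn_open
  have hselB : Continuous selB ∧ IsOpenMap selB :=
    ⟨evn_open.1.comp odd_open.1, evn_open.2.comp odd_open.2⟩
  have hselX : Continuous selX ∧ IsOpenMap selX :=
    ⟨odd_open.1.comp odd_open.1, odd_open.2.comp odd_open.2⟩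
  refine ⟨w, selA ⁻¹' cyl wbA ∩ (selB ⁻¹' cyl wbB ∩ selX ⁻¹' cyl wbX),
    ((isOpen_cyl _).preimage hselA.1).inter (((isOpen_cyl _).preimage hselB.1).inter
      ((isOpen_cyl _).preimage hselX.1)), ?_, ?_⟩
  · obtain ⟨a, ha⟩ := cyl_nonempty wbA
    obtain ⟨b', hb'⟩ := cyl_nonempty wbB
    obtain ⟨c, hc⟩ := cyl_nonempty wbX
    refine ⟨jn a (jn b' c), ?_, ?_, ?_⟩
    · show evn (jn a (jn b' c)) ∈ cyl wbA; rwa [evn_jn]
    · show evn (odd' (jn a (jn b' c))) ∈ cyl wbB; rwa [odd_jn, evn_jn]
    · show odd' (odd' (jn a (jn b' c))) ∈ cyl wbX; rwa [odd_jn, odd_jn]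
  -- pulling the generic identities back along the words
  have pull : ∀ (W : (ℕ → Bool) ≃ₜ (ℕ → Bool)) (sel : (ℕ → Bool) → ℕ → Bool),
      Continuous sel ∧ IsOpenMap sel → ∀ {P : (ℕ → Bool) × (ℕ → Bool) → Prop},
        (∀ᶠ z in residual _, P z) →
          ∀ᶠ z : (ℕ → Bool) × (ℕ → Bool) in residual _, P (W z.1, sel z.2) :=
    fun W sel hsel P hP =>
      residual_preimage (W.continuous.prodMap hsel.1) (W.isOpenMap.prodMap hsel.2) hP
  have hwA : ∀ i < wbA.length, tail m i = false := fun i hi => by simp [tail]; omega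
  have hwB : ∀ i < wbB.length, tail m i = false := fun i hi => by simp [tail]; omega
  have hwp : ∀ d i, i < wbX.length → pat m d i = false := fun d i hi => pat_low m d (by omega)
  have hall : ∀ᶠ z in residual ((ℕ → Bool) × (ℕ → Bool)), ∀ n j,
      (word m n j z.1 ∈ cyl wA → selA z.2 ∈ cyl wbA →
        Rep a₁ (F (word m n j z.1)) (F (selA z.2)) (F (swap ra (word m n j z.1) (selA z.2))) ∧
        Rep a₂ (F (swap ra (word m n j z.1) (selA z.2))) (F (xadd (selA z.2) (tail m)))
          (F (swap ra (word m n j z.1) (tail m)))) ∧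
      (word m n j z.1 ∈ cyl wB → selB z.2 ∈ cyl wbB →
        Rep b₁ (F (word m n j z.1)) (F (selB z.2)) (F (swap rb (word m n j z.1) (selB z.2))) ∧
        Rep b₂ (F (swap rb (word m n j z.1) (selB z.2))) (F (xadd (selB z.2) (tail m)))
          (F (swap rb (word m n j z.1) (tail m)))) ∧
      ∀ d : List Bool, (word m n j z.1 ∈ cyl wX → selX z.2 ∈ cyl wbX →
        Rep x₁ (F (word m n j z.1)) (F (selX z.2)) (F (xadd (word m n j z.1) (selX z.2))) ∧
        Rep x₂ (F (xadd (word m n j z.1) (selX z.2))) (F (xadd (selX z.2) (pat m d)))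
          (F (xadd (word m n j z.1) (pat m d)))) ∧ xadd (word m n j z.1) (pat m d) ∈ C := by
    refine eventually_countable_forall.2 fun n => eventually_countable_forall.2 fun j => ?_
    refine (pull (word m n j) selA hselA (hA (tail m) hwA)).and
      ((pull (word m n j) selB hselB (hB (tail m) hwB)).and
        (eventually_countable_forall.2 fun d => (pull (word m n j) selX hselX (hX (pat m d) (hwp d))).and ?_))
    exact residual_preimage (p := (· ∈ C))
      (((word m n j).trans (addH (pat m d))).continuous.comp continuous_fst)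
      (((word m n j).trans (addH (pat m d))).isOpenMap.comp isOpenMap_fst) hCr
  filter_upwards [hall] with z hz hzw hzU
  obtain ⟨hzA, hzB, hzX⟩ := hzU
  set x := z.1
  set va := selA z.2
  set vb := selB z.2
  set vx := selX z.2
  let cs : ℕ → ℕ → Bool := fun k => match k with
    | 0 => F x
    | 1 => F va
    | 2 => F (xadd va (tail m))
    | 3 => F vb
    | 4 => F (xadd vb (tail m))
    | 5 => F vx
    | k + 6 => F (xadd vx (pat m (pats.getI k)))
  set N := pats.length + 6 with hN
  set O := merge cs N with hO
  have hOle : TuringReducible (orc O) (orc (F (jn x z.2))) := by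
    have hp : TuringReducible (orc z.2) (orc (jn x z.2)) := jn_right _ _
    have hcomp : ∀ {p : ℕ → ℕ}, Computable p →
        TuringReducible (orc fun i => z.2 (p i)) (orc (jn x z.2)) := fun hq =>
      (reducible_comp' hq).trans hp
    have hA' : TuringReducible (orc va) (orc (jn x z.2)) :=
      hcomp (p := fun i => 2 * i) (Primrec.nat_mul.comp (Primrec.const 2) Primrec.id).to_comp
    have hodd : Computable fun i : ℕ => 2 * i + 1 :=
      (Primrec.succ.comp (Primrec.nat_mul.comp (Primrec.const 2) Primrec.id)).to_comp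
    have hB' : TuringReducible (orc vb) (orc (jn x z.2)) :=
      hcomp (p := fun i => 2 * (2 * i) + 1) (hodd.comp
        (Primrec.nat_mul.comp (Primrec.const 2) Primrec.id).to_comp)
    have hX' : TuringReducible (orc vx) (orc (jn x z.2)) :=
      hcomp (p := fun i => 2 * (2 * i + 1) + 1) (hodd.comp hodd)
    have hadd : ∀ {v c : ℕ → Bool}, Computable c → TuringReducible (orc v) (orc (jn x z.2)) →
        TuringReducible (orc (xadd v c)) (orc (jn x z.2)) := fun {v c} hc hv => by
      refine TuringReducible.trans (reducible_of_prefix (fun n => n + 1)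
        (fun p => xor (p.1.getI p.2) (c p.2)) Computable.succ
        ((Primrec.dom_bool₂ xor).to_comp.comp
          (primrec_getI_bool.to_comp.comp Computable.fst Computable.snd) (hc.comp Computable.snd))
        fun n => ?_) hv
      rw [pre_getI (Nat.lt_succ_self n)]
      rfl
    refine merge_reducible cs _ N fun k _ => ?_
    match k with
    | 0 => exact (hF.ord _ _).1 (jn_left _ _)
    | 1 => exact (hF.ord _ _).1 hA'
    | 2 => exact (hF.ord _ _).1 (hadd (computable_tail m) hA')
    | 3 => exact (hF.ord _ _).1 hB'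
    | 4 => exact (hF.ord _ _).1 (hadd (computable_tail m) hB')
    | 5 => exact (hF.ord _ _).1 hX'
    | k + 6 => exact (hF.ord _ _).1 (hadd (computable_pat m _) hX')
  refine TuringReducible.trans ?_ hOle
  have hcol : ∀ K k, k < N → Pref (colL k (pre O K)) (cs k) ∧
      (colL k (pre O K)).length = Nat.sqrt K - k := by
    intro K k hk
    have h := colL_pref (pref_pre O K) k
    rw [pre_length] at h
    rwa [hO, merge_col cs hk, ← hO] at h
  have hwsub : cyl w ⊆ cyl wA := fun y hy => hBA (hXB (hwX hy))
  have hinv : ∀ n j, word m n j x ∈ cyl w := fun n j =>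
    mem_cyl_of hzw fun i hi => word_below m n x j i hi
  let stA : List Bool → List Bool → List Bool := fun P q =>
    gstep (a₁, a₂) (((q, colL 1 P), colL 2 P), P.length)
  let stB : List Bool → List Bool → List Bool := fun P q =>
    gstep (b₁, b₂) (((q, colL 3 P), colL 4 P), P.length)
  let it : List Bool → ℕ → ℕ → List Bool := fun P n j =>
    Nat.rec (colL 0 P) (fun j q => if (m + (n - 1 - j)) % 2 = 0 then stA P q else stB P q) j
  have hitc : Primrec fun p : List Bool × ℕ => it p.1 p.2 p.2 := by
    have hP : Primrec fun a : (List Bool × ℕ) × ℕ × List Bool => a.1.1 :=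
      Primrec.fst.comp Primrec.fst
    have hq : Primrec fun a : (List Bool × ℕ) × ℕ × List Bool => a.2.2 :=
      Primrec.snd.comp Primrec.snd
    refine Primrec.nat_rec' (h := fun (p : List Bool × ℕ) (a : ℕ × List Bool) =>
      if (m + (p.2 - 1 - a.1)) % 2 = 0 then stA p.1 a.2 else stB p.1 a.2)
      Primrec.snd (primrec_colL.comp (Primrec.const 0) Primrec.fst) ?_
    exact (Primrec.ite (Primrec.eq.comp (Primrec.nat_mod.comp (Primrec.nat_add.comp (Primrec.const m)
        (Primrec.nat_sub.comp (Primrec.nat_sub.comp (Primrec.snd.comp Primrec.fst) (Primrec.const 1))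
          (Primrec.fst.comp Primrec.snd))) (Primrec.const 2)) (Primrec.const 0))
      ((primrec_stepF a₁ a₂).comp (((hq.pair (primrec_colL.comp (Primrec.const 1) hP)).pair
        (primrec_colL.comp (Primrec.const 2) hP)).pair (Primrec.list_length.comp hP)))
      ((primrec_stepF b₁ b₂).comp (((hq.pair (primrec_colL.comp (Primrec.const 3) hP)).pair
        (primrec_colL.comp (Primrec.const 4) hP)).pair (Primrec.list_length.comp hP)))).to₂
  have hsound : ∀ n K j, Pref (it (pre O K) n j) (F (word m n j x)) := by
    intro n K j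
    induction j with
    | zero => exact (hcol K 0 (by omega)).1
    | succ j ih =>
      show Pref (if (m + (n - 1 - j)) % 2 = 0 then stA _ _ else stB _ _)
        (F ((matchOf (m + (n - 1 - j))).f (word m n j x) (tail m)))
      unfold matchOf
      split_ifs
      · obtain ⟨h1, h2⟩ := (hz n j).1 (hwsub (hinv n j)) hzA
        exact gstep_pref (g := (a₁, a₂)) h1 h2 ih (hcol K 1 (by omega)).1 (hcol K 2 (by omega)).1 _
      · obtain ⟨h1, h2⟩ := (hz n j).2.1 (hXB (hwX (hinv n j))) hzB
        exact gstep_pref (g := (b₁, b₂)) h1 h2 ih (hcol K 3 (by omega)).1 (hcol K 4 (by omega)).1 _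
  have hsqrt : ∀ L k K, (L + k) * (L + k) ≤ K → L ≤ Nat.sqrt K - k := by
    intro L k K h
    have := Nat.le_sqrt.2 h
    omega
  have htot : ∀ n j L, ∃ M, ∀ K, M ≤ K → L ≤ (it (pre O K) n j).length := by
    intro n j
    induction j with
    | zero =>
      intro L
      exact ⟨L * L, fun K hK => by
        show L ≤ (colL 0 (pre O K)).length
        rw [(hcol K 0 (by omega)).2]; exact hsqrt L 0 K hK⟩
    | succ j ih =>
      intro L
      by_cases hpar : (m + (n - 1 - j)) % 2 = 0
      · obtain ⟨h1, h2⟩ := (hz n j).1 (hwsub (hinv n j)) hzA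
        obtain ⟨M, hM⟩ := gstep_long (g := (a₁, a₂)) h1 h2 L
        obtain ⟨M', hM'⟩ := ih M
        refine ⟨max (max M' M) ((M + 2) * (M + 2)), fun K hK => ?_⟩
        show L ≤ (if (m + (n - 1 - j)) % 2 = 0 then stA _ _ else stB _ _).length
        rw [if_pos hpar]
        exact hM _ _ _ _ (hsound n K j) (hcol K 1 (by omega)).1 (hcol K 2 (by omega)).1
          (hM' K (by omega)) (by rw [(hcol K 1 (by omega)).2]; exact hsqrt M 1 K (le_trans (le_trans (Nat.mul_le_mul (show M + 1 ≤ M + 2 by omega) (show M + 1 ≤ M + 2 by omega)) (le_max_right _ _)) hK))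
          (by rw [(hcol K 2 (by omega)).2]; exact hsqrt M 2 K (by omega)) (by rw [pre_length]; omega)
      · obtain ⟨h1, h2⟩ := (hz n j).2.1 (hXB (hwX (hinv n j))) hzB
        obtain ⟨M, hM⟩ := gstep_long (g := (b₁, b₂)) h1 h2 L
        obtain ⟨M', hM'⟩ := ih M
        refine ⟨max (max M' M) ((M + 4) * (M + 4)), fun K hK => ?_⟩
        show L ≤ (if (m + (n - 1 - j)) % 2 = 0 then stA _ _ else stB _ _).length
        rw [if_neg hpar]
        exact hM _ _ _ _ (hsound n K j) (hcol K 3 (by omega)).1 (hcol K 4 (by omega)).1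
          (hM' K (by omega)) (by rw [(hcol K 3 (by omega)).2]; exact hsqrt M 3 K (le_trans (le_trans (Nat.mul_le_mul (show M + 3 ≤ M + 4 by omega) (show M + 3 ≤ M + 4 by omega)) (le_max_right _ _)) hK))
          (by rw [(hcol K 4 (by omega)).2]; exact hsqrt M 4 K (by omega)) (by rw [pre_length]; omega)
  let g : List Bool × ℕ → Option Bool := fun p =>
    if p.2 < m then some (w.getI p.2)
    else decode τ b m (x₁, x₂) p.1 (it p.1 (p.2 - m) (p.2 - m)) pats 6
  have hg : Computable g :=
    (Primrec.ite (Primrec.nat_lt.comp Primrec.snd (Primrec.const m))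
      (Primrec.option_some.comp (primrec_getI_bool.comp (Primrec.const w) Primrec.snd))
      ((primrec_decode τ b m (x₁, x₂) pats 6).comp (Primrec.fst.pair
        (hitc.comp (Primrec.fst.pair (Primrec.nat_sub.comp Primrec.snd (Primrec.const m))))))).to_comp
  have hY : ∀ i, m ≤ i → word m (i - m) (i - m) x m = x i := fun i hi => by
    have := word_apply m (i - m) x (i - m) le_rfl
    rwa [Nat.sub_self, Nat.add_zero, show m + (i - m) = i by omega] at this
  have hcs : ∀ t d, pats[t]? = some d → cs (6 + t) = F (xadd vx (pat m d)) ∧ 6 + t < N := by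
    intro t d htd
    obtain ⟨ht, rfl⟩ := List.getElem?_eq_some_iff.1 htd
    refine ⟨?_, by omega⟩
    rw [Nat.add_comm 6 t]
    show F (xadd vx (pat m (pats.getI t))) = _
    rw [List.getI_eq_getElem _ ht]
  have hmem : ∀ n d, xadd (word m n n x) (pat m d) ∈ cyl w := fun n d =>
    mem_cyl_of (hinv n n) fun i hi => by simp [xadd, pat_low m d hi]
  refine reducible_of_search g hg (fun K i v hv => ?_) (fun i => ?_)
  · simp only [g] at hv
    split_ifs at hv with him
    · rw [← Option.some.inj hv, hzw i him]
    · obtain ⟨t, d, htd, rfl, htake⟩ := decode_sound hv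
      obtain ⟨hcst, htN⟩ := hcs t d htd
      set n := i - m
      obtain ⟨h1, h2⟩ := ((hz n n).2.2 d).1 (hwX (hinv n n)) hzX
      have hp := (hcol K (6 + t) htN).1
      rw [hcst] at hp
      have hout := gstep_pref (g := (x₁, x₂)) h1 h2 (hsound n K n) (hcol K 5 (by omega)).1 hp
        (pre O K).length
      rw [← hout, take_pre] at htake
      have hlen := congrArg List.length htake
      rw [pre_length] at hlen
      rw [hlen] at htake
      have hd0 : pat m d m = d.getI 0 := by
        obtain ⟨f, -, rfl⟩ := List.mem_map.1 (List.mem_of_getElem? htd)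
        simp [pat]
      have hnot : xadd (word m n n x) (pat m d) ∉ cyl (w ++ [!b]) := fun h =>
        hno _ ((hz n n).2.2 d).2 h htake
      have hbit : xor (word m n n x m) (pat m d m) = b := by
        by_contra hne
        refine hnot fun l hl => ?_
        simp only [List.length_append, List.length_singleton] at hl
        rcases Nat.lt_succ_iff_lt_or_eq.1 hl with h | h
        · rw [hmem n d l h, List.getI_eq_getElem _ h, List.getI_eq_getElem _ (by simp; omega),
            List.getElem_append_left h]
        · subst h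
          rw [List.getI_eq_getElem _ (by simp), List.getElem_append_right (le_refl _)]
          show xor (word m n n x m) (pat m d m) = _
          simp only [Nat.sub_self, List.getElem_singleton]
          cases hb : b <;> cases hx' : xor (word m n n x m) (pat m d m) <;> simp_all
      rw [← hY i (by omega), ← hbit, hd0]
      cases word m n n x m <;> cases d.getI 0 <;> rfl
  · by_cases him : i < m
    · exact ⟨0, by simp [g, him]⟩
    · set n := i - m with hn
      let Y := word m n n x
      let f : Fin (r.length + 1) → Bool := fun l => xor (Y (m + l)) ((b :: r).getI l)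
      obtain ⟨t, ht⟩ := List.getElem?_of_mem (show List.ofFn f ∈ pats from
        List.mem_map.2 ⟨f, Finset.mem_toList.2 (Finset.mem_univ f), rfl⟩)
      obtain ⟨hcst, htN⟩ := hcs t _ ht
      obtain ⟨h1, h2⟩ := ((hz n n).2.2 (List.ofFn f)).1 (hwX (hinv n n)) hzX
      have hin : xadd Y (pat m (List.ofFn f)) ∈ cyl (w ++ b :: r) := by
        intro l hl
        simp only [List.length_append, List.length_cons] at hl
        rcases Nat.lt_or_ge l m with h | h
        · rw [hmem n _ l h, List.getI_eq_getElem _ h, List.getI_eq_getElem _ (by simp; omega),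
            List.getElem_append_left h]
        · rw [List.getI_eq_getElem (w ++ b :: r) (by simp; omega), List.getElem_append_right h,
            ← List.getI_eq_getElem (b :: r) (by simp; omega)]
          have hl' : l - m < r.length + 1 := by omega
          simp only [xadd, pat, List.length_ofFn, decide_eq_true h,
            decide_eq_true (show l < m + (r.length + 1) by omega), Bool.true_and]
          rw [List.getI_eq_getElem _ (by simpa using hl'), List.getElem_ofFn]
          simp only [f]
          rw [show m + (l - m) = l by omega, hm]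
          cases Y l <;> cases (b :: r).getI (l - m) <;> rfl
      have hτ := hyes _ ((hz n n).2.2 (List.ofFn f)).2 hin
      obtain ⟨M, hM⟩ := gstep_long (g := (x₁, x₂)) h1 h2 τ.length
      obtain ⟨M', hM'⟩ := htot n n M
      refine ⟨max (max M' M) ((M + (6 + t)) * (M + (6 + t))), ?_⟩
      set K := max (max M' M) ((M + (6 + t)) * (M + (6 + t)))
      simp only [g, him, if_false]
      refine decode_tot (i := t) ht ?_
      have hp := hcol K (6 + t) htN
      rw [hcst] at hp
      have hout := gstep_pref (g := (x₁, x₂)) h1 h2 (hsound n K n) (hcol K 5 (by omega)).1 hp.1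
        (pre O K).length
      have hlong := hM _ _ _ (pre O K).length (hsound n K n) (hcol K 5 (by omega)).1 hp.1
        (hM' K (by omega)) (by rw [(hcol K 5 (by omega)).2]; exact hsqrt M 5 K (le_trans (Nat.mul_le_mul (show M + 5 ≤ M + (6 + t) by omega) (show M + 5 ≤ M + (6 + t) by omega)) (le_max_right _ _)))
        (by rw [hp.2]; exact hsqrt M (6 + t) K (le_max_right _ _)) (by rw [pre_length]; omega)
      rw [← hout, take_pre, min_eq_left hlong, hτ]

theorem le_image {F : (ℕ → Bool) → ℕ → Bool} {C : Set (ℕ → Bool)}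
    (hCr : C ∈ residual (ℕ → Bool)) (hC : ContOn F C) (hF : RepAuto F) (u : ℕ → Bool) :
    TuringReducible (orc u) (orc (F u)) := by
  obtain ⟨wQ, U, hU, hUne, hcore⟩ := core hF hCr hC
  -- the preimage of every degree lies below it
  suffices h : ∀ x s, TuringReducible (orc (F s)) (orc x) → TuringReducible (orc s) (orc x) from
    h (F u) u (TuringReducible.refl _)
  intro x s hs
  set c : ℕ → Bool := fun i => decide (i < wQ.length) && x i with hc
  set x' := xadd x c with hx'
  have hcc : Computable c := Homeo.computable_trunc x wQ.length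
  have hx'x : TuringReducible (orc x') (orc x) := Homeo.xadd_reducible hcc
  have hxx' : TuringReducible (orc x) (orc x') := by
    have := Homeo.xadd_reducible (x := x') hcc
    rwa [hx', xadd_xadd] at this
  refine TuringReducible.trans ?_ hx'x
  have hsplit : ∀ (W : (ℕ → Bool) ≃ₜ (ℕ → Bool)), ∀ᶠ y in residual (ℕ → Bool),
      W (evn y) ∈ cyl wQ → odd' y ∈ U →
        TuringReducible (orc (W (evn y))) (orc (F (jn (W (evn y)) (odd' y)))) := by
    intro W
    exact residual_preimage (f := fun y => (W (evn y), odd' y))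
      ((W.continuous.prodMap continuous_id).comp jnH.symm.continuous)
      ((W.isOpenMap.prodMap IsOpenMap.id).comp jnH.symm.isOpenMap) hcore
  obtain ⟨S, hSo, hSd, hSc, hS⟩ :=
    mem_residual_iff.1 ((hsplit (Homeomorph.refl _)).and (hsplit (addH x')))
  obtain ⟨D, hD⟩ := (hSc.insert Set.univ).exists_eq_range (Set.insert_nonempty _ _)
  have hDi : ∀ i, IsOpen (D i) ∧ Dense (D i) := by
    intro i
    have : D i ∈ insert Set.univ S := hD ▸ Set.mem_range_self i
    rcases Set.mem_insert_iff.1 this with h | h
    · rw [h]; exact ⟨isOpen_univ, dense_univ⟩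
    · exact ⟨hSo _ h, hSd _ h⟩
  refine cone_avoid (U := evn ⁻¹' cyl wQ ∩ odd' ⁻¹' U)
    (((isOpen_cyl _).preimage evn_open.1).inter (hU.preimage odd_open.1)) ?_ D
    (fun i => (hDi i).1) (fun i => (hDi i).2) fun y ⟨hy1, hy2⟩ hyD => ?_
  · obtain ⟨a, ha⟩ := cyl_nonempty wQ
    obtain ⟨p, hp⟩ := hUne
    exact ⟨jn a p, by rwa [Set.mem_preimage, evn_jn], by rwa [Set.mem_preimage, odd_jn]⟩
  obtain ⟨hg, hg'⟩ := hS (show y ∈ ⋂₀ S from fun t ht => by
    obtain ⟨i, rfl⟩ : t ∈ Set.range D := hD ▸ Set.mem_insert_of_mem _ ht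
    exact hyD i)
  set g := evn y
  set p := odd' y
  have h1 := hg hy1 hy2
  have h2 : TuringReducible (orc (xadd g x')) (orc (F (jn (xadd g x') p))) :=
    hg' (mem_cyl_of hy1 fun i hi => by
      show xor (g i) (x' i) = g i
      simp [hx', hc, xadd, hi]) hy2
  have hle : ∀ {a : ℕ → Bool}, TuringReducible (orc a) (orc y) →
      TuringReducible (orc a) (orc (jn x' y)) := fun ha => ha.trans (jn_right _ _)
  have hgy : TuringReducible (orc g) (orc y) :=
    reducible_comp' (p := fun i => 2 * i) (Primrec.nat_mul.comp (Primrec.const 2) Primrec.id).to_comp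
  have hpy : TuringReducible (orc p) (orc y) :=
    reducible_comp' (p := fun i => 2 * i + 1)
      (Primrec.succ.comp (Primrec.nat_mul.comp (Primrec.const 2) Primrec.id)).to_comp
  have hsum : TuringReducible (orc x') (orc (jn g (xadd g x'))) := by
    have := Homeo.xadd_jn_reducible g (xadd g x')
    rwa [show xadd g (xadd g x') = x' from funext fun i => by simp [xadd]] at this
  refine (hF.ord s (jn x' y)).2 ((hs.trans hxx').trans (hsum.trans (jn_le (h1.trans ?_) (h2.trans ?_))))
  · exact (hF.ord _ _).1 (jn_le (hle hgy) (hle hpy))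
  · exact (hF.ord _ _).1 (jn_le ((Homeo.xadd_jn_reducible _ _).trans
      (jn_le (hle hgy) (jn_left _ _))) (hle hpy))

end Vale.Agent.P327.Borel
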