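import Vale.Agent.P327.Borel.Inverse

/-! From one half of rigidity to rigidity, and the passage to degree classes. -/

namespace Vale.Agent.P327.Borel

open Homeo

/-- If every representation maps each real above itself, then every representation is trivial. -/
theorem trivial_of_forall_le
    (h : ∀ G : (ℕ → Bool) → ℕ → Bool, RepAuto G → ∀ u, TuringReducible (orc u) (orc (G u)))
    {π : (ℕ → Bool) → ℕ → Bool} (hπ : RepAuto π) (x : ℕ → Bool) :
    TuringEquivalent (orc (π x)) (orc x) := by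
  choose σ hσ₁ hσ₂ using hπ.surj
  have hσ : RepAuto σ := by
    refine ⟨fun a b => ?_, fun y => ?_⟩
    · rw [hπ.ord (σ a) (σ b)]
      exact ⟨fun h => (hσ₁ a).trans (h.trans (hσ₂ b)), fun h => (hσ₂ a).trans (h.trans (hσ₁ b))⟩
    · exact ⟨π y, (hπ.ord _ _).2 (hσ₁ (π y)), (hπ.ord _ _).2 (hσ₂ (π y))⟩
  exact ⟨(h σ hσ (π x)).trans ((hπ.ord _ _).2 (hσ₁ (π x))), h π hπ x⟩

/-- A Borel representation is trivial. -/
theorem trivial_of_measurable
    (h : ∀ G : (ℕ → Bool) → ℕ → Bool, Measurable G → RepAuto G →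
      ∀ u, TuringReducible (orc u) (orc (G u)))
    {F : (ℕ → Bool) → ℕ → Bool} (hFm : Measurable F) (hF : RepAuto F) (x : ℕ → Bool) :
    TuringEquivalent (orc (F x)) (orc x) := by
  obtain ⟨G, hGm, hG, hGF⟩ := exists_inverse hFm hF (h F hFm hF)
  exact ⟨(h G hGm hG (F x)).trans (hGF x).1, h F hFm hF x⟩

theorem degree_le_iff (f g : ℕ →. ℕ) :
    toAntisymmetrization TuringReducible f ≤ toAntisymmetrization TuringReducible g ↔
      TuringReducible f g := Iff.rfl

/-- The Turing degrees of the subsets of `ℕ`, as a set of Mathlib's degrees. -/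
abbrev SetDeg := {d : TuringDegree // ∃ x : ℕ → Bool, d = toAntisymmetrization TuringReducible (orc x)}

theorem orderIso_eq_refl
    (h : ∀ π : (ℕ → Bool) → ℕ → Bool, RepAuto π → ∀ x, TuringEquivalent (orc (π x)) (orc x))
    (π : SetDeg ≃o SetDeg) : π = OrderIso.refl SetDeg := by
  let d : (ℕ → Bool) → SetDeg := fun x => ⟨_, x, rfl⟩
  have hd : ∀ x y, d x ≤ d y ↔ TuringReducible (orc x) (orc y) := fun x y => degree_le_iff _ _
  choose g hg using fun x => (π (d x)).2
  have hgd : ∀ x, π (d x) = d (g x) := fun x => Subtype.ext (hg x)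
  have hrep : RepAuto g := by
    refine ⟨fun x y => ?_, fun y => ?_⟩
    · rw [← hd, ← hd, ← hgd, ← hgd, π.le_iff_le]
    · obtain ⟨x, hx⟩ := (π.symm (d y)).2
      have hxy : d (g x) = d y := by
        rw [← hgd, show d x = π.symm (d y) from Subtype.ext hx.symm, π.apply_symm_apply]
      exact ⟨x, (hd _ _).1 hxy.le, (hd _ _).1 hxy.ge⟩
  ext ⟨c, x, hx⟩ : 2
  subst hx
  have := h g hrep x
  have e : d (g x) = d x :=
    le_antisymm ((hd _ _).2 this.1) ((hd _ _).2 this.2)
  exact (hgd x).trans e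

end Vale.Agent.P327.Borel
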