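import Vale.Agent.P327.Borel.Category

/-! Pairs of functionals realising a tail operation on the images of a Borel representation. -/

namespace Vale.Agent.P327.Borel

open Nat.Partrec Filter Homeo Topology

/-- An operation of the xor group on Cantor space given by reductions. -/
structure Act where
  f : (ℕ → Bool) → (ℕ → Bool) → ℕ → Bool
  invol : ∀ a b, f (f a b) b = a
  comp : ∀ a b b', f (f a b) b' = f a (xadd b b')
  red : ∀ a b, TuringReducible (orc (f a b)) (orc (jn a b))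
  cont : Continuous fun z : (ℕ → Bool) × (ℕ → Bool) => f z.1 z.2
  loc : ∀ (a e : ℕ → Bool) (m : ℕ), (∀ i < m, e i = false) → ∀ i < m, f a e i = a i

/-- Translation. -/
def xorAct : Act where
  f := xadd
  invol := xadd_xadd
  comp a b b' := funext fun i => by simp [xadd]
  red a b := by
    refine reducible_of_prefix (fun n => 2 * n + 2)
      (fun p => xor (p.1.getI (2 * p.2)) (p.1.getI (2 * p.2 + 1)))
      (Primrec.succ.comp (Primrec.succ.comp (Primrec.nat_mul.comp (Primrec.const 2) Primrec.id))).to_comp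
      ((Primrec.dom_bool₂ xor).comp
        (primrec_getI_bool.comp Primrec.fst (Primrec.nat_mul.comp (Primrec.const 2) Primrec.snd))
        (primrec_getI_bool.comp Primrec.fst
          (Primrec.succ.comp (Primrec.nat_mul.comp (Primrec.const 2) Primrec.snd)))).to_comp
      fun n => ?_
    rw [pre_getI (by omega), pre_getI (by omega)]
    simp [xadd, jn, show (2 * n + 1) % 2 = 1 by omega, show (2 * n + 1) / 2 = n by omega]
  cont := continuous_xadd
  loc a e m he i hi := by simp [xadd, he i hi]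

/-- The swap along a computable matching. -/
def swapAct (r : ℕ → ℕ) (hr : Function.Involutive r) (hrc : Computable r) : Act where
  f := swap r
  invol := swap_invol hr
  comp := swap_swap hr
  red := swap_reducible hrc
  cont := continuous_swap r
  loc a e m he i hi := by simp [swap, he (min i (r i)) (by omega)]

/-- `(a, b) ↦ (f a b, b)` as a homeomorphism. -/
def Act.pairH (T : Act) : ((ℕ → Bool) × (ℕ → Bool)) ≃ₜ ((ℕ → Bool) × (ℕ → Bool)) where
  toFun z := (T.f z.1 z.2, z.2)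
  invFun z := (T.f z.1 z.2, z.2)
  left_inv z := by simp [T.invol]
  right_inv z := by simp [T.invol]
  continuous_toFun := T.cont.prodMk continuous_snd
  continuous_invFun := T.cont.prodMk continuous_snd

/-- Translation as a homeomorphism. -/
def addH (e : ℕ → Bool) : (ℕ → Bool) ≃ₜ (ℕ → Bool) where
  toFun v := xadd v e
  invFun v := xadd v e
  left_inv v := xadd_xadd v e
  right_inv v := xadd_xadd v e
  continuous_toFun := continuous_xadd.comp (continuous_id.prodMk continuous_const)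
  continuous_invFun := continuous_xadd.comp (continuous_id.prodMk continuous_const)

/-- `f · e` as a homeomorphism. -/
def Act.fixH (T : Act) (e : ℕ → Bool) : (ℕ → Bool) ≃ₜ (ℕ → Bool) where
  toFun a := T.f a e
  invFun a := T.f a e
  left_inv a := T.invol a e
  right_inv a := T.invol a e
  continuous_toFun := T.cont.comp (continuous_id.prodMk (continuous_const (y := e)))
  continuous_invFun := T.cont.comp (continuous_id.prodMk (continuous_const (y := e)))

variable {F : (ℕ → Bool) → ℕ → Bool}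

/-- `F` preserves and reflects reducibility and meets every degree. -/
structure RepAuto (F : (ℕ → Bool) → ℕ → Bool) : Prop where
  ord : ∀ x y, TuringReducible (orc x) (orc y) ↔ TuringReducible (orc (F x)) (orc (F y))
  surj : ∀ y, ∃ x, TuringReducible (orc (F x)) (orc y) ∧ TuringReducible (orc y) (orc (F x))

theorem RepAuto.map_jn (hF : RepAuto F) {a x y : ℕ → Bool}
    (h : TuringReducible (orc a) (orc (jn x y))) :
    TuringReducible (orc (F a)) (orc (jn (F x) (F y))) := by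
  obtain ⟨w, hw1, hw2⟩ := hF.surj (jn (F x) (F y))
  have hx : TuringReducible (orc x) (orc w) := (hF.ord x w).2 ((jn_left _ _).trans hw2)
  have hy : TuringReducible (orc y) (orc w) := (hF.ord y w).2 ((jn_right _ _).trans hw2)
  exact ((hF.ord a w).1 (h.trans (jn_le hx hy))).trans hw1

theorem exists_box {O : Set ((ℕ → Bool) × (ℕ → Bool))} (hO : IsOpen O) (hne : O.Nonempty) :
    ∃ wa wb : List Bool, cyl wa ×ˢ cyl wb ⊆ O := by
  obtain ⟨z, hz⟩ := hne
  obtain ⟨P, Q, hP, hQ, hzP, hzQ, hPQ⟩ := isOpen_prod_iff.1 hO z.1 z.2 hz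
  obtain ⟨L₁, h₁⟩ := exists_cyl hP hzP
  obtain ⟨L₂, h₂⟩ := exists_cyl hQ hzQ
  exact ⟨_, _, (Set.prod_mono h₁ h₂).trans hPQ⟩

theorem cyl_nonempty (w : List Bool) : (cyl w).Nonempty :=
  ⟨fun i => w.getI i, fun _ _ => rfl⟩

theorem mem_cyl_of {w : List Bool} {y y' : ℕ → Bool} (hy : y ∈ cyl w)
    (he : ∀ i < w.length, y' i = y i) : y' ∈ cyl w := fun i hi => (he i hi).trans (hy i hi)

theorem exists_gadget (hF : RepAuto F) {C : Set (ℕ → Bool)}
    (hCr : C ∈ residual (ℕ → Bool)) (hC : ContOn F C) (T : Act)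
    {A : Set (ℕ → Bool)} (hA : IsOpen A) (hne : A.Nonempty) :
    ∃ (wa wb : List Bool) (c₁ c₂ : Code), cyl wa ⊆ A ∧ ∀ e : ℕ → Bool,
      (∀ i < wb.length, e i = false) → ∀ᶠ z in residual ((ℕ → Bool) × (ℕ → Bool)),
        z.1 ∈ cyl wa → z.2 ∈ cyl wb →
          Rep c₁ (F z.1) (F z.2) (F (T.f z.1 z.2)) ∧
          Rep c₂ (F (T.f z.1 z.2)) (F (xadd z.2 e)) (F (T.f z.1 e)) := by
  obtain ⟨x, hx⟩ := hne
  let g : (ℕ → Bool) × (ℕ → Bool) → ℕ → Bool := fun z => T.f z.1 z.2
  have hg : Continuous g := T.cont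
  have hgo : IsOpenMap g := isOpenMap_fst.comp T.pairH.isOpenMap
  have hred : ∀ z : (ℕ → Bool) × (ℕ → Bool),
      TuringReducible (orc (F (g z))) (orc (jn (F z.1) (F z.2))) := fun z => hF.map_jn (T.red _ _)
  obtain ⟨c₂, O₁, hsub₁, hO₁, hne₁, hrep₁⟩ := exists_rep hCr hC g hg hgo hred (g ⁻¹' A)
    (hA.preimage hg) ⟨(T.f x x, x), show T.f (T.f x x) x ∈ A by rwa [T.invol]⟩
  obtain ⟨wa₁, wb₁, hbox₁⟩ := exists_box hO₁ hne₁
  obtain ⟨a₀, ha₀⟩ := cyl_nonempty wa₁
  obtain ⟨b₀, hb₀⟩ := cyl_nonempty wb₁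
  have hU : IsOpen ((Prod.fst ⁻¹' A) ∩ ((g ⁻¹' cyl wa₁) ∩ (Prod.snd ⁻¹' cyl wb₁))) :=
    (hA.preimage continuous_fst).inter (((isOpen_cyl _).preimage hg).inter
      ((isOpen_cyl _).preimage continuous_snd))
  obtain ⟨c₁, O₂, hsub₂, hO₂, hne₂, hrep₂⟩ := exists_rep hCr hC g hg hgo hred _ hU
    ⟨(T.f a₀ b₀, b₀), hsub₁ (hbox₁ (Set.mk_mem_prod ha₀ hb₀)),
      show T.f (T.f a₀ b₀) b₀ ∈ cyl wa₁ by rwa [T.invol], hb₀⟩
  obtain ⟨wa, wb, hbox⟩ := exists_box hO₂ hne₂
  obtain ⟨b₁, hb₁⟩ := cyl_nonempty wb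
  obtain ⟨a₁, ha₁⟩ := cyl_nonempty wa
  refine ⟨wa, wb, c₁, c₂, fun a ha => (hsub₂ (hbox (Set.mk_mem_prod ha hb₁))).1, fun e he => ?_⟩
  have h2 := residual_preimage (T.pairH.trans ((Homeomorph.refl _).prodCongr (addH e))).continuous
    (T.pairH.trans ((Homeomorph.refl _).prodCongr (addH e))).isOpenMap hrep₁
  filter_upwards [hrep₂, h2] with z hz2 hz1 ha hb
  refine ⟨hz2 (hbox (Set.mk_mem_prod ha hb)), ?_⟩
  have hv : xadd z.2 e ∈ cyl wb := mem_cyl_of hb fun i hi => by simp [xadd, he i hi]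
  have h := hz1 (hbox₁ (Set.mk_mem_prod (hsub₂ (hbox (Set.mk_mem_prod ha hb))).2.1
    (hsub₂ (hbox (Set.mk_mem_prod ha₁ hv))).2.2))
  have he' : T.f (T.f z.1 z.2) (xadd z.2 e) = T.f z.1 e := by
    rw [T.comp]
    congr 1
    funext i; simp [xadd]
  rw [← he']
  exact h

end Vale.Agent.P327.Borel
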