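import Vale.Agent.P327.Borel.Gadget

/-! A Borel section of a Borel representation that maps every real above itself. -/

namespace Vale.Agent.P327.Borel

open Nat.Partrec Homeo

/-- A monotone code that decides `y` along the prefixes of `z` is a reduction. -/
theorem reducible_of_code {z y : ℕ → Bool} (c : Code)
    (hc : ∀ n v, (v ∈ orc y n ↔ ∃ L, v ∈ c.eval (Encodable.encode ((pre z L, n) : List Bool × ℕ)))) :
    TuringReducible (orc y) (orc z) := by
  let g : List Bool × ℕ → Option Bool := fun p =>
    (Code.evaln p.1.length.unpair.2 c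
      (Encodable.encode ((p.1.take p.1.length.unpair.1, p.2) : List Bool × ℕ))).map
        fun v => decide (v = 1)
  have hu : Primrec fun p : List Bool × ℕ => p.1.length.unpair :=
    Primrec.unpair.comp (Primrec.list_length.comp Primrec.fst)
  have hg : Computable g :=
    (Primrec.option_map (Code.primrec_evaln.comp (((Primrec.snd.comp hu).pair (Primrec.const c)).pair
      (Primrec.encode.comp ((Primrec.list_take.comp (Primrec.fst.comp hu) Primrec.fst).pair
        Primrec.snd)))) (PrimrecPred.decide (Primrec.eq.comp Primrec.snd (Primrec.const 1))).to₂).to_comp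
  refine reducible_of_search g hg (fun K n b hb => ?_) (fun n => ?_)
  · simp only [g, Option.map_eq_some_iff, take_pre, pre_length] at hb
    obtain ⟨v, hv, rfl⟩ := hb
    have := (hc n v).2 ⟨_, Code.evaln_sound hv⟩
    simp only [orc, Part.mem_some_iff] at this
    cases hn : y n <;> simp [this, hn]
  · obtain ⟨L, hL⟩ := (hc n _).1 (Part.mem_some (if y n then 1 else 0))
    obtain ⟨k, hk⟩ := Code.evaln_complete.1 hL
    refine ⟨Nat.pair L k, ?_⟩
    have hle := Nat.left_le_pair L k
    simp only [g, pre_length, Nat.unpair_pair, Option.isSome_map, take_pre, min_eq_left hle]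
    exact Option.isSome_iff_exists.2 ⟨_, hk⟩

theorem isOpen_halts (c : Code) (n v : ℕ) :
    IsOpen {w : ℕ → Bool | ∃ L, v ∈ c.eval (Encodable.encode ((pre w L, n) : List Bool × ℕ))} :=
  isOpen_iff_forall_mem_open.2 fun w ⟨L, hL⟩ => ⟨cyl (pre w L),
    fun w' hw' => ⟨L, by rw [pre_eq_of (mem_cyl_pre.1 hw')]; exact hL⟩,
    isOpen_cyl _, mem_cyl_pre.2 fun _ _ => rfl⟩

theorem measurableSet_red {α : Type*} [MeasurableSpace α] {f g : α → ℕ → Bool}
    (hf : Measurable f) (hg : Measurable g) :
    MeasurableSet {a | TuringReducible (orc (f a)) (orc (g a))} := by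
  have he : {a | TuringReducible (orc (f a)) (orc (g a))} = ⋃ c : Code, ⋂ n : ℕ, ⋂ v : ℕ,
      {a | v ∈ orc (f a) n ↔
        ∃ L, v ∈ c.eval (Encodable.encode ((pre (g a) L, n) : List Bool × ℕ))} := by
    ext a
    simp only [Set.mem_setOf_eq, Set.mem_iUnion, Set.mem_iInter]
    constructor
    · intro h
      obtain ⟨c, -, hc⟩ := use_code h
      exact ⟨c, hc⟩
    · rintro ⟨c, hc⟩
      exact reducible_of_code c hc
  rw [he]
  refine MeasurableSet.iUnion fun c => MeasurableSet.iInter fun n => MeasurableSet.iInter fun v => ?_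
  have h1 : MeasurableSet {a | v ∈ orc (f a) n} := by
    have : {a | v ∈ orc (f a) n} =
        (fun a => f a n) ⁻¹' {b : Bool | v = if b then 1 else 0} := by
      ext a; simp [orc]
    rw [this]
    exact ((measurable_pi_apply n).comp hf) (MeasurableSpace.measurableSet_top)
  have h2 := hg (isOpen_halts c n v).measurableSet
  have he2 : {a | v ∈ orc (f a) n ↔
      ∃ L, v ∈ c.eval (Encodable.encode ((pre (g a) L, n) : List Bool × ℕ))} =
    ({a | v ∈ orc (f a) n} ∩ g ⁻¹' {w | ∃ L, v ∈ c.eval (Encodable.encode ((pre w L, n) : List Bool × ℕ))}) ∪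
      ({a | v ∈ orc (f a) n}ᶜ ∩
        (g ⁻¹' {w | ∃ L, v ∈ c.eval (Encodable.encode ((pre w L, n) : List Bool × ℕ))})ᶜ) := by
    ext a
    simp only [Set.mem_setOf_eq, Set.mem_union, Set.mem_inter_iff, Set.mem_compl_iff, Set.mem_preimage]
    tauto
  rw [he2]
  exact (h1.inter h2).union (h1.compl.inter h2.compl)

open Classical in
/-- The output of a code along the prefixes of `y`. -/
noncomputable def val (c : Code) (y : ℕ → Bool) : ℕ → Bool := fun n =>
  decide (∃ L, 1 ∈ c.eval (Encodable.encode ((pre y L, n) : List Bool × ℕ)))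

theorem measurable_val (c : Code) : Measurable (val c) := by
  refine measurable_pi_iff.2 fun n => measurable_to_bool ?_
  convert (isOpen_halts c n 1).measurableSet using 1
  ext y
  classical exact decide_eq_true_iff

/-- A Borel inverse. -/
theorem exists_inverse {F : (ℕ → Bool) → ℕ → Bool} (hFm : Measurable F) (hF : RepAuto F)
    (hle : ∀ u, TuringReducible (orc u) (orc (F u))) :
    ∃ G, Measurable G ∧ RepAuto G ∧ ∀ x, TuringEquivalent (orc (G (F x))) (orc x) := by
  classical
  let f : ℕ → (ℕ → Bool) → ℕ → Bool := fun k => val (Denumerable.ofNat Code k)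
  let p : ℕ → (ℕ → Bool) → Prop := fun k y =>
    TuringReducible (orc (F (f k y))) (orc y) ∧ TuringReducible (orc y) (orc (F (f k y)))
  have hp : ∀ y, ∃ k, p k y := by
    intro y
    obtain ⟨x, hx1, hx2⟩ := hF.surj y
    obtain ⟨c, -, hc⟩ := use_code ((hle x).trans hx1)
    refine ⟨Encodable.encode c, ?_⟩
    have hv : f (Encodable.encode c) y = x := by
      funext n
      simp only [f, Denumerable.ofNat_encode, val]
      rw [Bool.eq_iff_iff, decide_eq_true_iff, ← hc n 1]
      cases hn : x n <;> simp [orc, hn]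
    simp only [p, hv]
    exact ⟨hx1, hx2⟩
  have hfm : ∀ k, Measurable (f k) := fun k => measurable_val _
  have hpm : ∀ k, MeasurableSet {y | p k y} := fun k =>
    (measurableSet_red (hFm.comp (hfm k)) measurable_id).inter
      (measurableSet_red measurable_id (hFm.comp (hfm k)))
  refine ⟨fun y => f (Nat.find (hp y)) y, Measurable.find hfm hpm hp, ⟨fun a b => ?_, fun x => ?_⟩,
    fun x => ?_⟩
  · rw [hF.ord (f (Nat.find (hp a)) a)]
    have ha := Nat.find_spec (hp a)
    have hb := Nat.find_spec (hp b)
    exact ⟨fun h => ha.1.trans (h.trans hb.2), fun h => ha.2.trans (h.trans hb.1)⟩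
  · have h := Nat.find_spec (hp (F x))
    exact ⟨F x, (hF.ord _ _).2 h.1, (hF.ord _ _).2 h.2⟩
  · have h := Nat.find_spec (hp (F x))
    exact ⟨(hF.ord _ _).2 h.1, (hF.ord _ _).2 h.2⟩

end Vale.Agent.P327.Borel
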