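import Vale.Agent.P327.Borel.Gadget

/-! Auxiliary facts: oracle columns, the word of tail swaps, and reading one bit. -/

namespace Vale.Agent.P327.Borel

open Nat.Partrec Filter Homeo Topology

/-- A column of a string under the pairing. -/
def colL (k : ℕ) (l : List Bool) : List Bool :=
  (List.range (Nat.sqrt l.length - k)).map fun i => l.getI (Nat.pair k i)

theorem primrec_colL : Primrec₂ colL := by
  have hs : Primrec fun p : ℕ × List Bool => Nat.sqrt p.2.length :=
    (Primrec.nat_sqrt).comp (Primrec.list_length.comp Primrec.snd)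
  exact (Primrec.list_map (Primrec.list_range.comp (Primrec.nat_sub.comp hs Primrec.fst))
    (primrec_getI_bool.comp (Primrec.snd.comp Primrec.fst)
      (Primrec₂.natPair.comp (Primrec.fst.comp Primrec.fst) Primrec.snd)).to₂).to₂

theorem colL_pref {z : ℕ → Bool} {l : List Bool} (h : Pref l z) (k : ℕ) :
    Pref (colL k l) (fun i => z (Nat.pair k i)) ∧
      (colL k l).length = Nat.sqrt l.length - k := by
  refine ⟨?_, by simp [colL]⟩
  rw [Pref, pre, colL, List.length_map, List.length_range]
  refine List.map_congr_left fun i hi => (h.getI ?_).symm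
  rw [List.mem_range] at hi
  have h1 := Nat.sqrt_le l.length
  have h2 := Nat.pair_lt_max_add_one_sq k i
  have h3 : max k i + 1 ≤ Nat.sqrt l.length := by omega
  calc Nat.pair k i < (max k i + 1) ^ 2 := h2
    _ ≤ Nat.sqrt l.length ^ 2 := Nat.pow_le_pow_left h3 2
    _ ≤ l.length := by rw [sq]; exact h1

/-- Merge finitely many columns. -/
def merge (cs : ℕ → ℕ → Bool) (N : ℕ) : ℕ → Bool := fun i =>
  decide (i.unpair.1 < N) && cs i.unpair.1 i.unpair.2

theorem merge_col (cs : ℕ → ℕ → Bool) {N k : ℕ} (hk : k < N) :
    (fun i => merge cs N (Nat.pair k i)) = cs k := funext fun i => by simp [merge, hk]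

theorem merge_reducible (cs : ℕ → ℕ → Bool) (w : ℕ → Bool) (N : ℕ)
    (h : ∀ k < N, TuringReducible (orc (cs k)) (orc w)) :
    TuringReducible (orc (merge cs N)) (orc w) := by
  induction N with
  | zero => exact reducible_of_rows (R := fun _ => []) (Computable.const []) fun n => by simp [merge, dot]
  | succ N ih =>
    refine TuringReducible.trans ?_ (jn_le (ih fun k hk => h k (by omega)) (h N (by omega)))
    refine reducible_of_prefix (fun i => 2 * i + 2)
      (fun p => bif decide (p.2.unpair.1 = N) then p.1.getI (2 * p.2.unpair.2 + 1)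
        else p.1.getI (2 * p.2)) ?_ ?_ fun i => ?_
    · exact (Primrec.succ.comp (Primrec.succ.comp
        (Primrec.nat_mul.comp (Primrec.const 2) Primrec.id))).to_comp
    · exact (Primrec.cond (PrimrecPred.decide (Primrec.eq.comp
          (Primrec.fst.comp (Primrec.unpair.comp Primrec.snd)) (Primrec.const N)))
        (primrec_getI_bool.comp Primrec.fst (Primrec.succ.comp (Primrec.nat_mul.comp
          (Primrec.const 2) (Primrec.snd.comp (Primrec.unpair.comp Primrec.snd)))))
        (primrec_getI_bool.comp Primrec.fst (Primrec.nat_mul.comp (Primrec.const 2) Primrec.snd))).to_comp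
    · have hle := Nat.unpair_right_le i
      dsimp only
      rw [pre_getI (by omega), pre_getI (by omega)]
      by_cases hi : i.unpair.1 = N
      · simp [merge, jn, hi, show (2 * i.unpair.2 + 1) % 2 = 1 by omega,
          show (2 * i.unpair.2 + 1) / 2 = i.unpair.2 by omega]
      · have : i.unpair.1 < N + 1 ↔ i.unpair.1 < N := by omega
        simp [merge, jn, hi, this]

/-- The matching used at a position of parity `k`. -/
def matchOf (k : ℕ) : Act :=
  if k % 2 = 0 then swapAct ra ra_invol computable_ra else swapAct rb rb_invol computable_rb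

/-- The first `j` tail swaps of the word of length `n`. -/
noncomputable def word (m n j : ℕ) : (ℕ → Bool) ≃ₜ (ℕ → Bool) :=
  Nat.rec (Homeomorph.refl _) (fun j w => w.trans ((matchOf (m + (n - 1 - j))).fixH (tail m))) j

theorem matchOf_apply (m k : ℕ) (hk : m ≤ k) (y : ℕ → Bool) :
    (matchOf k).f y (tail m) k = y (k + 1) := by
  unfold matchOf
  rcases Nat.mod_two_eq_zero_or_one k with h | h
  · rw [if_pos h]
    show swap ra y (tail m) k = _
    rw [swap, show ra k = k + 1 by unfold ra; rw [if_pos h]]
    simp [tail, show m ≤ k from hk]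
  · rw [if_neg (by omega)]
    show swap rb y (tail m) k = _
    rw [swap, show rb k = k + 1 by unfold rb; rw [if_neg (by omega), if_pos h]]
    simp [tail, show m ≤ k from hk]

theorem word_apply (m n : ℕ) (x : ℕ → Bool) :
    ∀ j ≤ n, word m n j x (m + (n - j)) = x (m + n) := by
  intro j hj
  induction j with
  | zero => rfl
  | succ j ih =>
    show (matchOf (m + (n - 1 - j))).f (word m n j x) (tail m) (m + (n - (j + 1))) = _
    rw [show n - (j + 1) = n - 1 - j by omega, matchOf_apply m _ (by omega),
      show m + (n - 1 - j) + 1 = m + (n - j) by omega, ih (by omega)]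

theorem word_below (m n : ℕ) (x : ℕ → Bool) (j i : ℕ) (hi : i < m) : word m n j x i = x i := by
  induction j with
  | zero => rfl
  | succ j ih =>
    show (matchOf (m + (n - 1 - j))).f (word m n j x) (tail m) i = _
    rw [(matchOf _).loc _ _ m (fun l hl => by simp [tail, show ¬ m ≤ l by omega]) i hi, ih]

variable {F : (ℕ → Bool) → ℕ → Bool}

theorem countable_below (y : ℕ → Bool) :
    {u : ℕ → Bool | TuringReducible (orc u) (orc y)}.Countable := by
  classical
  choose c hc using fun u : {u : ℕ → Bool // TuringReducible (orc u) (orc y)} => use_code u.2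
  refine Set.countable_coe_iff.1 (Function.Injective.countable (f := c) fun u v huv => ?_)
  apply Subtype.ext
  funext n
  have h1 := ((hc u).2 n _).1 (Part.mem_some (if u.1 n then 1 else 0))
  rw [huv] at h1
  have h2 := ((hc v).2 n _).2 h1
  simp only [orc, Part.mem_some_iff] at h2
  cases hu : u.1 n <;> cases hv : v.1 n <;> simp_all

theorem exists_generic {C : Set (ℕ → Bool)} (hCr : C ∈ residual (ℕ → Bool)) (w : List Bool)
    (u₀ : ℕ → Bool) : ∃ u ∈ C, u ∈ cyl w ∧ ¬ TuringReducible (orc u) (orc u₀) := by
  have hS := countable_below u₀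
  have h2 : ∀ᶠ u in residual (ℕ → Bool), ¬ TuringReducible (orc u) (orc u₀) := by
    haveI := hS.to_subtype
    have : ∀ᶠ u in residual (ℕ → Bool),
        ∀ v : {u : ℕ → Bool | TuringReducible (orc u) (orc u₀)}, u ≠ v.1 := by
      refine eventually_countable_forall.2 fun v => residual_of_dense_open
        (isOpen_compl_singleton (x := v.1)) ?_
      rw [dense_iff_inter_open]
      intro W hW ⟨z, hz⟩
      obtain ⟨L, hL⟩ := exists_cyl hW hz
      refine ⟨fun i => if i = L then !(v.1 i) else z i, hL (mem_cyl_pre.2 fun i hi => ?_), ?_⟩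
      · simp [show i ≠ L by omega]
      · intro he
        have := congrFun (Set.mem_singleton_iff.1 he) L
        simp at this
    exact this.mono fun u hu hle => hu ⟨u, hle⟩ rfl
  obtain ⟨u, hu1, hu2, hu3⟩ :=
    (dense_of_mem_residual (Filter.inter_mem hCr h2)).inter_open_nonempty _ (isOpen_cyl w)
      (cyl_nonempty w)
  exact ⟨u, hu2, hu1, hu3⟩

/-- Some prefix of `F` separates the two values of one bit inside a cylinder. -/
theorem exists_read (hF : RepAuto F) {C : Set (ℕ → Bool)} (hCr : C ∈ residual (ℕ → Bool))
    (hC : ContOn F C) (w₀ : List Bool) (M : ℕ) :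
    ∃ (w : List Bool) (b : Bool) (r τ : List Bool), cyl w ⊆ cyl w₀ ∧ M ≤ w.length ∧
      (∀ y ∈ C, y ∈ cyl (w ++ b :: r) → pre (F y) τ.length = τ) ∧
      (∀ y ∈ C, y ∈ cyl (w ++ [!b]) → pre (F y) τ.length ≠ τ) := by
  by_contra hno
  set w₁ := w₀ ++ List.replicate M false with hw₁
  have hsub : cyl w₁ ⊆ cyl w₀ := fun y hy i hi => by
    rw [hy i (by simp [hw₁]; omega), List.getI_eq_getElem _ (by simp [hw₁]; omega),
      List.getElem_append_left hi, ← List.getI_eq_getElem _ hi]
  have hlen : M ≤ w₁.length := by simp [hw₁]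
  -- every value is attained near every point
  have hmove : ∀ u ∈ C, u ∈ cyl w₁ → ∀ (t : ℕ → Bool), t ∈ cyl w₁ → ∀ L k, ∃ u' ∈ C,
      (∀ i < k, u' i = t i) ∧ u' ∈ cyl w₁ ∧ pre (F u') L = pre (F u) L := by
    intro u huC hu t ht L k
    induction k with
    | zero => exact ⟨u, huC, fun i hi => absurd hi (by omega), hu, rfl⟩
    | succ k ih =>
      obtain ⟨v, hvC, hvt, hv, hvL⟩ := ih
      by_cases hk : v k = t k
      · refine ⟨v, hvC, fun i hi => ?_, hv, hvL⟩
        rcases Nat.lt_succ_iff_lt_or_eq.1 hi with h | h
        exacts [hvt i h, h ▸ hk]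
      have hkw : w₁.length ≤ k := by
        by_contra h
        exact hk (by rw [hv k (by omega), ht k (by omega)])
      obtain ⟨L', hL'⟩ := hC v hvC L
      by_contra hnone
      refine hno ⟨pre v k, v k, (pre v (max L' (k + 1))).drop (k + 1), pre (F u) L, ?_, ?_, ?_, ?_⟩
      · exact fun y hy => hsub (mem_cyl_of hv fun i hi => mem_cyl_pre.1 hy i (by omega))
      · rw [pre_length]; omega
      · intro y hy hy'
        rw [pre_length, ← hvL]
        refine hL' y hy fun i hi => ?_
        have he : pre v k ++ v k :: (pre v (max L' (k + 1))).drop (k + 1) = pre v (max L' (k + 1)) := by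
          have h1 : pre v k ++ [v k] = pre v (k + 1) := by simp [pre, List.range_succ]
          rw [← List.singleton_append, ← List.append_assoc, h1]
          conv_rhs => rw [← List.take_append_drop (k + 1) (pre v (max L' (k + 1)))]
          rw [take_pre, min_eq_left (le_max_right _ _)]
        rw [he] at hy'
        exact mem_cyl_pre.1 hy' i (by omega)
      · intro y hy hy' hyL
        rw [pre_length] at hyL
        have h1 : ∀ i < k, y i = v i := fun i hi => by
          rw [hy' i (by simp [pre]; omega), List.getI_eq_getElem _ (by simp [pre]; omega),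
            List.getElem_append_left (by simpa [pre] using hi)]
          simp [pre]
        refine hnone ⟨y, hy, fun i hi => ?_, mem_cyl_of hv fun i hi => h1 i (by omega), hyL⟩
        rcases Nat.lt_succ_iff_lt_or_eq.1 hi with h | h
        · rw [h1 i h, hvt i h]
        · subst h
          rw [hy' i (by simp [pre]), List.getI_eq_getElem _ (by simp [pre]),
            List.getElem_append_right (by simp [pre])]
          simp only [pre, List.length_map, List.length_range, Nat.sub_self, List.getElem_singleton]
          cases hv' : v i <;> cases ht' : t i <;> simp_all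
  obtain ⟨u₀, hu₀C, hu₀, -⟩ := exists_generic hCr w₁ zseq
  obtain ⟨u, huC, hu, hnle⟩ := exists_generic hCr w₁ u₀
  have heq : F u = F u₀ := by
    funext i
    obtain ⟨L, hL⟩ := hC u₀ hu₀C (i + 1)
    obtain ⟨u', hu'C, hu', -, hu'L⟩ := hmove u huC hu u₀ hu₀ (i + 1) L
    have := hL u' hu'C hu'
    rw [← pre_getI (x := F u) (show i < i + 1 by omega), ← hu'L, this, pre_getI (by omega)]
  exact hnle ((hF.ord u u₀).2 (heq ▸ TuringReducible.refl _))

end Vale.Agent.P327.Borel
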